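import Mathlib
import Vale.Agent.Lib.P248.helper25.ABDefs

/-!
# P248, anti-blocking pool (helper11): orthant decomposition

The orthant pieces of a measurable set `K`, reflected into the positive orthant, have total
volume at most the volume of `K`.
-/

namespace Vale.Agent.Lib.P248.H11

open Vale.Agent.Lib.P248.H25 MeasureTheory
open scoped ENNReal

theorem refl_refl {n : ℕ} (σ : Fin n → Bool) (x : Fin n → ℝ) : refl σ (refl σ x) = x := by
  funext i
  show (if σ i then (if σ i then x i else -x i) else -(if σ i then x i else -x i)) = x i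
  by_cases hs : σ i = true
  · rw [if_pos hs, if_pos hs]
  · rw [if_neg hs, if_neg hs, neg_neg]

theorem measurePreserving_refl {n : ℕ} (σ : Fin n → Bool) :
    MeasurePreserving (refl σ) (volume : Measure (Fin n → ℝ)) volume := by
  have h : ∀ i : Fin n,
      MeasurePreserving (fun t : ℝ => if σ i then t else -t) volume volume := by
    intro i
    by_cases hσ : σ i = true
    · simp only [hσ, if_true]
      exact MeasurePreserving.id volume
    · simp only [hσ]
      exact Measure.measurePreserving_neg volume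
  have h2 := measurePreserving_pi (fun _ : Fin n => (volume : Measure ℝ))
    (fun _ : Fin n => (volume : Measure ℝ)) h
  rw [volume_pi]
  exact h2

theorem sum_piece_le {n : ℕ} {K : Set (Fin n → ℝ)} (hK : MeasurableSet K) :
    ∑ σ : Fin n → Bool, volume (piece K σ) ≤ volume K := by
  classical
  set pos : Set (Fin n → ℝ) := {z | ∀ i, 0 < z i} with hpos
  have hposm : MeasurableSet pos := by
    have : pos = ⋂ i, {z : Fin n → ℝ | 0 < z i} := by
      ext z; simp [hpos]
    rw [this]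
    exact MeasurableSet.iInter fun i => measurableSet_lt measurable_const (measurable_pi_apply i)
  set Q : (Fin n → Bool) → Set (Fin n → ℝ) := fun σ => refl σ ⁻¹' pos ∩ K with hQ
  have hQm : ∀ σ, MeasurableSet (Q σ) := fun σ =>
    ((measurePreserving_refl σ).measurable hposm).inter hK
  have hQK : ∀ σ, Q σ ⊆ K := fun σ => Set.inter_subset_right
  have hdisj : Set.PairwiseDisjoint (↑(Finset.univ : Finset (Fin n → Bool))) Q := by
    intro σ _ τ _ hne
    rw [Function.onFun, Set.disjoint_left]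
    rintro x ⟨hx1, -⟩ ⟨hx2, -⟩
    obtain ⟨i, hi⟩ := Function.ne_iff.1 hne
    have h1 : 0 < (if σ i then x i else -x i) := hx1 i
    have h2 : 0 < (if τ i then x i else -x i) := hx2 i
    cases hs : σ i <;> cases ht : τ i <;> simp [hs, ht] at h1 h2 hi <;> linarith
  have hnull : volume (⋃ i : Fin n, {z : Fin n → ℝ | z i = 0}) = 0 := by
    rw [measure_iUnion_null_iff]
    intro i
    rw [volume_pi]
    exact Measure.pi_hyperplane _ i 0
  have hpiece : ∀ σ, volume (piece K σ) ≤ volume (Q σ) := by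
    intro σ
    have h1 : piece K σ ⊆ refl σ ⁻¹' (Q σ) ∪ ⋃ i : Fin n, {z : Fin n → ℝ | z i = 0} := by
      intro z hz
      obtain ⟨hz0, hzK⟩ := hz
      by_cases h : ∀ i, 0 < z i
      · left
        refine ⟨?_, hzK⟩
        show refl σ (refl σ z) ∈ pos
        rw [refl_refl]; exact h
      · right
        obtain ⟨i, hi⟩ := not_forall.1 h
        exact Set.mem_iUnion.2 ⟨i, le_antisymm (not_lt.1 hi) (hz0 i)⟩
    calc volume (piece K σ)
        ≤ volume (refl σ ⁻¹' (Q σ) ∪ ⋃ i : Fin n, {z : Fin n → ℝ | z i = 0}) := measure_mono h1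
      _ ≤ volume (refl σ ⁻¹' (Q σ)) + volume (⋃ i : Fin n, {z : Fin n → ℝ | z i = 0}) :=
          measure_union_le _ _
      _ = volume (Q σ) := by
          rw [hnull, add_zero,
            (measurePreserving_refl σ).measure_preimage (hQm σ).nullMeasurableSet]
  calc ∑ σ : Fin n → Bool, volume (piece K σ)
      ≤ ∑ σ : Fin n → Bool, volume (Q σ) := Finset.sum_le_sum fun σ _ => hpiece σ
    _ = volume (⋃ σ ∈ (Finset.univ : Finset (Fin n → Bool)), Q σ) :=
        (measure_biUnion_finset hdisj fun σ _ => hQm σ).symm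
    _ ≤ volume K := measure_mono (by
        intro x hx
        simp only [Set.mem_iUnion] at hx
        obtain ⟨σ, -, hx⟩ := hx
        exact hQK σ hx)

/-- Cauchy-Schwarz over a finite index set, in `[0, ∞]`: if `c ≤ a i * b i` for all `i` then
`(card ι)^2 * c ≤ (∑ a) * (∑ b)`. -/
theorem card_sq_mul_le {ι : Type*} [Fintype ι] (a b : ι → ℝ≥0∞) (c : ℝ≥0∞)
    (h : ∀ i, c ≤ a i * b i) :
    (Fintype.card ι : ℝ≥0∞) ^ 2 * c ≤ (∑ i, a i) * (∑ i, b i) := by
  have hpq : (2 : ℝ).HolderConjugate 2 := Real.HolderConjugate.two_two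
  have h1 := ENNReal.inner_le_Lp_mul_Lq Finset.univ (fun i => a i ^ (1 / 2 : ℝ))
    (fun i => b i ^ (1 / 2 : ℝ)) hpq
  have h2 : ∀ x : ℝ≥0∞, (x ^ (1 / 2 : ℝ)) ^ (2 : ℝ) = x := by
    intro x
    rw [← ENNReal.rpow_mul]; norm_num
  simp only [h2] at h1
  have h3 : (Fintype.card ι : ℝ≥0∞) * c ^ (1 / 2 : ℝ) ≤
      ∑ i, a i ^ (1 / 2 : ℝ) * b i ^ (1 / 2 : ℝ) := by
    calc (Fintype.card ι : ℝ≥0∞) * c ^ (1 / 2 : ℝ) = ∑ _i : ι, c ^ (1 / 2 : ℝ) := by
          rw [Finset.sum_const, Finset.card_univ, nsmul_eq_mul]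
      _ ≤ _ := Finset.sum_le_sum fun i _ => by
          rw [← ENNReal.mul_rpow_of_nonneg _ _ (by norm_num : (0 : ℝ) ≤ 1 / 2)]
          exact ENNReal.rpow_le_rpow (h i) (by norm_num)
  have h4 := h3.trans h1
  have h5 : ((Fintype.card ι : ℝ≥0∞) * c ^ (1 / 2 : ℝ)) ^ (2 : ℝ) ≤
      ((∑ i, a i) ^ (1 / 2 : ℝ) * (∑ i, b i) ^ (1 / 2 : ℝ)) ^ (2 : ℝ) :=
    ENNReal.rpow_le_rpow h4 (by norm_num)
  rw [ENNReal.mul_rpow_of_nonneg _ _ (by norm_num : (0 : ℝ) ≤ 2),
    ENNReal.mul_rpow_of_nonneg _ _ (by norm_num : (0 : ℝ) ≤ 2), h2, h2, h2] at h5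
  rwa [ENNReal.rpow_two] at h5

/-- From the orthant pieces to the whole body: a lower bound `c` for the volume products of
all orthant pieces of `K` and of its polar gives `4 ^ n * c ≤ |K| * |K°|`. -/
theorem four_pow_mul_le {n : ℕ} {K : Set (Fin n → ℝ)} (hK : MeasurableSet K)
    (hKp : MeasurableSet (ppolar K)) (c : ℝ≥0∞)
    (h : ∀ σ : Fin n → Bool, c ≤ volume (piece K σ) * volume (piece (ppolar K) σ)) :
    (4 : ℝ≥0∞) ^ n * c ≤ volume K * volume (ppolar K) := by
  have h1 := card_sq_mul_le (fun σ : Fin n → Bool => volume (piece K σ))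
    (fun σ : Fin n → Bool => volume (piece (ppolar K) σ)) c h
  have hcard : (Fintype.card (Fin n → Bool) : ℝ≥0∞) ^ 2 = (4 : ℝ≥0∞) ^ n := by
    rw [Fintype.card_fun, Fintype.card_bool, Fintype.card_fin]
    push_cast
    rw [← pow_mul, mul_comm, pow_mul]
    norm_num
  rw [hcard] at h1
  exact h1.trans (mul_le_mul' (sum_piece_le hK) (sum_piece_le hKp))

end Vale.Agent.Lib.P248.H11
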