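import Mathlib
import Vale.Agent.Lib.P248.helper37.Q2Defs

open MeasureTheory Set

namespace Vale.Agent.Lib.P248.H11Q

open Vale.Agent.Lib.P248.H37 Vale.Agent.Lib.P248.H37Q

/-- `ENNReal.ofReal` is subadditive on finite sums. -/
theorem ofReal_sum_le {ι : Type*} (s : Finset ι) (f : ι → ℝ) :
    ENNReal.ofReal (∑ i ∈ s, f i) ≤ ∑ i ∈ s, ENNReal.ofReal (f i) := by
  classical
  induction s using Finset.induction_on with
  | empty => simp
  | insert a s ha ih =>
    rw [Finset.sum_insert ha, Finset.sum_insert ha]
    exact le_trans ENNReal.ofReal_add_le (add_le_add le_rfl ih)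

/-- The lower bound for the parts of the polar with `k` negative coordinates, by induction on
the dimension, from the leaves of the pool given as hypotheses. -/
theorem polK_lower_of
    (adm_sec : ∀ {n : ℕ} {A : Set (Fin (n + 1) → ℝ)} {z : Fin (n + 1) → ℝ}, Adm A z →
      ∀ i : Fin (n + 1), Adm (sec A i) (fun k => z (i.succAbove k)))
    (vT_dim_zero : ∀ (A : Set (Fin 0 → ℝ)) (z : Fin 0 → ℝ), vT A z = 1)
    (volume_posZ_ne_top : ∀ {m : ℕ} {A : Set (Fin m → ℝ)} {z : Fin m → ℝ}, Adm A z →
      volume (posZ A z) ≠ ⊤)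
    (polK_zero : ∀ {m : ℕ} (A : Set (Fin m → ℝ)) (z : Fin m → ℝ), polK A z 0 = posZ A z)
    (polK_count : ∀ {m : ℕ} (A : Set (Fin m → ℝ)) (z : Fin m → ℝ) (k : ℕ),
      (k : ENNReal) * volume (polK A z k) = ∑ i, volume (polK A z k ∩ {y | y i < 0}))
    (polK_piece : ∀ {n : ℕ} {A : Set (Fin (n + 1) → ℝ)} {z : Fin (n + 1) → ℝ}, Adm A z →
      ∀ (i : Fin (n + 1)) (k : ℕ),
        ENNReal.ofReal (1 / (((n : ℝ) + 1) * z i)) *
            volume (polK (sec A i) (fun j => z (i.succAbove j)) k) ≤
          volume (polK A z (k + 1) ∩ {y | y i < 0})) :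
    ∀ (m : ℕ) (A : Set (Fin m → ℝ)) (z : Fin m → ℝ), Adm A z → ∀ k : ℕ,
      ENNReal.ofReal ((tree m A z).Om k / ((k.factorial : ℝ) * (m.factorial : ℝ) * ∏ i, z i)) ≤
        volume (polK A z k) := by
  intro m
  induction m with
  | zero =>
    intro A z h k
    cases k with
    | zero =>
      have h0 : (tree 0 A z).Om 0 = 1 := rfl
      rw [h0, polK_zero]
      have hv : volume (posZ A z) = ENNReal.ofReal (vT A z) :=
        (ENNReal.ofReal_toReal (volume_posZ_ne_top h)).symm
      rw [hv, vT_dim_zero]
      apply ENNReal.ofReal_le_ofReal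
      simp
    | succ k =>
      have h0 : (tree 0 A z).Om (k + 1) = 0 := rfl
      rw [h0, zero_div, ENNReal.ofReal_zero]
      exact zero_le
  | succ n ih =>
    intro A z h k
    have hzpos : ∀ i, 0 < z i := h.pos
    have hprod : 0 < ∏ i, z i := Finset.prod_pos (fun i _ => hzpos i)
    cases k with
    | zero =>
      have h0 : (tree (n + 1) A z).Om 0 = ((n + 1).factorial : ℝ) * vT A z * ∏ i, z i := rfl
      rw [h0, polK_zero]
      have hv : volume (posZ A z) = ENNReal.ofReal (vT A z) :=
        (ENNReal.ofReal_toReal (volume_posZ_ne_top h)).symm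
      rw [hv]
      apply ENNReal.ofReal_le_ofReal
      have hf : (0 : ℝ) < ((n + 1).factorial : ℝ) := by exact_mod_cast Nat.factorial_pos _
      rw [Nat.factorial_zero, Nat.cast_one, one_mul]
      have hq : ((n + 1).factorial : ℝ) * vT A z * (∏ i, z i)
          / (((n + 1).factorial : ℝ) * ∏ i, z i) = vT A z := by
        field_simp
      rw [hq]
    | succ k =>
      have h0 : (tree (n + 1) A z).Om (k + 1)
          = ∑ i, (tree n (sec A i) (fun j => z (i.succAbove j))).Om k := rfl
      rw [h0]
      have hkf : (0 : ℝ) < (k.factorial : ℝ) := by exact_mod_cast Nat.factorial_pos _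
      have hnf : (0 : ℝ) < (n.factorial : ℝ) := by exact_mod_cast Nat.factorial_pos _
      have hn1 : (0 : ℝ) < (n : ℝ) + 1 := by positivity
      have hk1 : (0 : ℝ) < (k : ℝ) + 1 := by positivity
      have hpiece : ∀ i : Fin (n + 1),
          ENNReal.ofReal ((tree n (sec A i) (fun j => z (i.succAbove j))).Om k
            / ((k.factorial : ℝ) * ((n + 1).factorial : ℝ) * ∏ i, z i))
          ≤ volume (polK A z (k + 1) ∩ {y | y i < 0}) := by
        intro i
        have h1 := polK_piece h i k
        have h2 := ih (sec A i) (fun j => z (i.succAbove j)) (adm_sec h i) k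
        have hzi : 0 < z i := hzpos i
        have hP : 0 < ∏ j, z (i.succAbove j) := Finset.prod_pos (fun j _ => hzpos _)
        have h3 : (tree n (sec A i) (fun j => z (i.succAbove j))).Om k
              / ((k.factorial : ℝ) * ((n + 1).factorial : ℝ) * ∏ i, z i)
            = 1 / (((n : ℝ) + 1) * z i)
              * ((tree n (sec A i) (fun j => z (i.succAbove j))).Om k
                / ((k.factorial : ℝ) * (n.factorial : ℝ) * ∏ j, z (i.succAbove j))) := by
          rw [Fin.prod_univ_succAbove z i, Nat.factorial_succ]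
          push_cast
          field_simp
        rw [h3, ENNReal.ofReal_mul (by positivity)]
        exact le_trans (mul_le_mul' le_rfl h2) h1
      have hsum : ENNReal.ofReal (∑ i : Fin (n + 1),
            (tree n (sec A i) (fun j => z (i.succAbove j))).Om k
              / ((k.factorial : ℝ) * ((n + 1).factorial : ℝ) * ∏ i, z i))
          ≤ ((k + 1 : ℕ) : ENNReal) * volume (polK A z (k + 1)) := by
        rw [polK_count]
        exact le_trans (ofReal_sum_le _ _) (Finset.sum_le_sum (fun i _ => hpiece i))
      have hfin : (∑ i, (tree n (sec A i) (fun j => z (i.succAbove j))).Om k)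
            / (((k + 1).factorial : ℝ) * ((n + 1).factorial : ℝ) * ∏ i, z i)
          = (∑ i : Fin (n + 1), (tree n (sec A i) (fun j => z (i.succAbove j))).Om k
              / ((k.factorial : ℝ) * ((n + 1).factorial : ℝ) * ∏ i, z i)) / ((k + 1 : ℕ) : ℝ) := by
        rw [← Finset.sum_div, Nat.factorial_succ k]
        push_cast
        field_simp
      rw [hfin, ENNReal.ofReal_div_of_pos (by positivity), ENNReal.ofReal_natCast]
      exact ENNReal.div_le_of_le_mul' hsum

end Vale.Agent.Lib.P248.H11Q
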