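import Mathlib
import Vale.Agent.Lib.P248.helper1.ConeDefs

namespace Vale.Agent.Lib.P248.H11Y

open MeasureTheory Set
open scoped ENNReal
open Vale.Agent.Lib.P248.H1

/-- For `|t| < 1` and every `k`: `(1 - t)⁻¹ ^ k + (1 + t)⁻¹ ^ k ≥ 2`. -/
theorem two_le_inv_pow_add (t : ℝ) (ht : |t| < 1) (k : ℕ) :
    (2 : ℝ) ≤ (1 - t)⁻¹ ^ k + (1 + t)⁻¹ ^ k := by
  have h1 : -1 < t := (abs_lt.mp ht).1
  have h2 : t < 1 := (abs_lt.mp ht).2
  have ha : 1 + t ≤ (1 - t)⁻¹ := by
    rw [← one_div, le_div_iff₀ (by linarith)]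
    nlinarith [sq_nonneg t]
  have hb : 1 + -t ≤ (1 + t)⁻¹ := by
    rw [← one_div, le_div_iff₀ (by linarith)]
    nlinarith [sq_nonneg t]
  have hA : 1 + (k : ℝ) * t ≤ (1 - t)⁻¹ ^ k :=
    le_trans (one_add_mul_le_pow (by linarith) k) (pow_le_pow_left₀ (by linarith) ha k)
  have hB : 1 + (k : ℝ) * (-t) ≤ (1 + t)⁻¹ ^ k :=
    le_trans (one_add_mul_le_pow (by linarith) k) (pow_le_pow_left₀ (by linarith) hb k)
  linarith

/-- For a symmetric measurable set `T` on which `|⟨z, y⟩| < 1`, the volume of `T` is at most the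
integral over `T` of `(1 - ⟨z, y⟩)^(-(m+1))`. -/
theorem volume_le_lintegral_symm {m : ℕ} (z : EuclideanSpace ℝ (Fin m))
    (T : Set (EuclideanSpace ℝ (Fin m))) (hT : MeasurableSet T) (hTs : ∀ y ∈ T, -y ∈ T)
    (habs : ∀ y ∈ T, |inner ℝ z y| < 1) :
    volume T ≤ ∫⁻ y in T, ENNReal.ofReal ((1 - inner ℝ z y)⁻¹ ^ (m + 1)) := by
  have hcont : Continuous fun y : EuclideanSpace ℝ (Fin m) => inner ℝ z y :=
    continuous_const.inner continuous_id
  have hgm : Measurable fun y : EuclideanSpace ℝ (Fin m) =>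
      ENNReal.ofReal ((1 - inner ℝ z y)⁻¹ ^ (m + 1)) :=
    ENNReal.measurable_ofReal.comp (((measurable_const.sub hcont.measurable).inv).pow_const _)
  have hneg : ∫⁻ y in T, ENNReal.ofReal ((1 - inner ℝ z (-y))⁻¹ ^ (m + 1))
      = ∫⁻ y in T, ENNReal.ofReal ((1 - inner ℝ z y)⁻¹ ^ (m + 1)) := by
    rw [← lintegral_indicator hT, ← lintegral_indicator hT]
    rw [← lintegral_neg_eq_self
      (T.indicator fun y => ENNReal.ofReal ((1 - inner ℝ z y)⁻¹ ^ (m + 1)))]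
    apply lintegral_congr
    intro y
    by_cases hy : y ∈ T
    · have hy' : -y ∈ T := hTs y hy
      rw [indicator_of_mem hy, indicator_of_mem hy']
    · have hy' : -y ∉ T := fun h => hy (by simpa using hTs (-y) h)
      rw [indicator_of_notMem hy, indicator_of_notMem hy']
  have h2 : (2 : ℝ≥0∞) * volume T
      ≤ 2 * ∫⁻ y in T, ENNReal.ofReal ((1 - inner ℝ z y)⁻¹ ^ (m + 1)) := by
    calc (2 : ℝ≥0∞) * volume T = ∫⁻ _ in T, (2 : ℝ≥0∞) := by rw [setLIntegral_const]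
      _ ≤ ∫⁻ y in T, (ENNReal.ofReal ((1 - inner ℝ z y)⁻¹ ^ (m + 1))
            + ENNReal.ofReal ((1 - inner ℝ z (-y))⁻¹ ^ (m + 1))) := by
          apply setLIntegral_mono' hT
          intro y hy
          have ht := habs y hy
          have h1 : -1 < inner ℝ z y := (abs_lt.mp ht).1
          have h2 : inner ℝ z y < 1 := (abs_lt.mp ht).2
          have hreal := two_le_inv_pow_add (inner ℝ z y) ht (m + 1)
          rw [inner_neg_right, sub_neg_eq_add]
          rw [← ENNReal.ofReal_add (pow_nonneg (inv_nonneg.mpr (by linarith)) _)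
            (pow_nonneg (inv_nonneg.mpr (by linarith)) _)]
          calc (2 : ℝ≥0∞) = ENNReal.ofReal 2 := by simp
            _ ≤ _ := ENNReal.ofReal_le_ofReal hreal
      _ = (∫⁻ y in T, ENNReal.ofReal ((1 - inner ℝ z y)⁻¹ ^ (m + 1)))
            + ∫⁻ y in T, ENNReal.ofReal ((1 - inner ℝ z (-y))⁻¹ ^ (m + 1)) :=
          lintegral_add_left hgm _
      _ = 2 * ∫⁻ y in T, ENNReal.ofReal ((1 - inner ℝ z y)⁻¹ ^ (m + 1)) := by
          rw [hneg, two_mul]
  exact (ENNReal.mul_le_mul_iff_right (by norm_num) (by norm_num)).mp h2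

end Vale.Agent.Lib.P248.H11Y
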